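import Vale.Agent.P166F.Sys

/-!
P166: the laws of the overlaps of systems live on a compact set of Gram arrays.
-/

namespace Vale.Agent.P166F

open MeasureTheory ProbabilityTheory Filter
open scoped RealInnerProductSpace Topology

set_option linter.unusedSectionVars false

variable {J : Type} [Fintype J]

/-- Arrays of Gram matrices with entries in `[-1, 1]`, one for each group. -/
def oset (J : Type) [Fintype J] (n : ℕ) : Set (OArr J n) :=
  {R | (∀ a b j, |R a b j| ≤ 1) ∧ (∀ a b, R a b = R b a) ∧
    ∀ j (c : Fin n → ℝ), 0 ≤ ∑ a, ∑ b, c a * c b * R a b j}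

lemma isCompact_oset (n : ℕ) : IsCompact (oset J n) := by
  refine IsCompact.of_isClosed_subset
    (isCompact_univ_pi fun _ : Fin n => isCompact_univ_pi fun _ : Fin n =>
      isCompact_univ_pi fun _ : J => (isCompact_Icc : IsCompact (Set.Icc (-1 : ℝ) 1))) ?_
    fun R hR => ?_
  · simp only [oset, Set.ofPred_and, Set.ofPred_forall]
    refine ((isClosed_iInter fun a => isClosed_iInter fun b => isClosed_iInter fun j => ?_).inter
      ((isClosed_iInter fun a => isClosed_iInter fun b => ?_).inter
        (isClosed_iInter fun j => isClosed_iInter fun c => ?_)))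
    · exact isClosed_le (by fun_prop) continuous_const
    · exact isClosed_eq (by fun_prop) (by fun_prop)
    · exact isClosed_le continuous_const (by fun_prop)
  · exact fun a _ b _ j _ => abs_le.1 (hR.1 a b j)

instance compactSpace_oset (n : ℕ) : CompactSpace (oset J n) :=
  isCompact_iff_compactSpace.1 (isCompact_oset n)

/-- The law on all arrays of a law on Gram arrays. -/
noncomputable def arrLaw {n : ℕ} (μ : ProbabilityMeasure (oset J n)) : Measure (OArr J n) :=
  (μ : Measure (oset J n)).map Subtype.val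

instance isProbabilityMeasure_arrLaw {n : ℕ} (μ : ProbabilityMeasure (oset J n)) :
    IsProbabilityMeasure (arrLaw μ) :=
  Measure.isProbabilityMeasure_map measurable_subtype_coe.aemeasurable

lemma ae_arrLaw {n : ℕ} (μ : ProbabilityMeasure (oset J n)) : ∀ᵐ R ∂arrLaw μ, R ∈ oset J n :=
  (ae_map_iff measurable_subtype_coe.aemeasurable
    (isCompact_oset n).isClosed.measurableSet).2 (Eventually.of_forall fun R => R.2)

lemma integral_arrLaw {n : ℕ} (μ : ProbabilityMeasure (oset J n)) {F : OArr J n → ℝ}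
    (hF : Continuous F) : ∫ R, F R ∂arrLaw μ = ∫ R : oset J n, F R ∂(μ : Measure (oset J n)) :=
  integral_map measurable_subtype_coe.aemeasurable hF.aestronglyMeasurable

lemma integrable_arrLaw {n : ℕ} (μ : ProbabilityMeasure (oset J n)) {F : OArr J n → ℝ}
    (hF : Continuous F) : Integrable F (arrLaw μ) := by
  obtain ⟨D, hD⟩ := (isCompact_oset n).exists_bound_of_continuousOn hF.continuousOn
  exact Integrable.of_bound hF.aestronglyMeasurable D ((ae_arrLaw μ).mono fun R hR => hD R hR)

lemma continuous_osub {k n : ℕ} (e : Fin k → Fin n) : Continuous fun R : OArr J n => osub R e := by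
  unfold osub
  fun_prop

/-- The replicas outside the range of an injection average out. -/
lemma sum_prod_comp {X : Type} [Fintype X] (p : X → ℝ) (hp : ∑ x, p x = 1) {k n : ℕ}
    (e : Fin k → Fin n) (he : Function.Injective e) (G : (Fin k → X) → ℝ) :
    ∑ x : Fin n → X, (∏ l, p (x l)) * G (fun i => x (e i)) = ∑ y, (∏ i, p (y i)) * G y := by
  classical
  let q : Fin k ⊕ {l : Fin n // l ∉ Set.range e} ≃ Fin n :=
    (Equiv.sumCongr (Equiv.ofInjective e he) (Equiv.refl _)).trans
      (Equiv.sumCompl fun l => l ∈ Set.range e)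
  let ψ : (Fin k → X) × ({l : Fin n // l ∉ Set.range e} → X) ≃ (Fin n → X) :=
    (Equiv.sumArrowEquivProdArrow _ _ _).symm.trans (Equiv.arrowCongr q (Equiv.refl X))
  have hq : ∀ (y : Fin k → X) (z : {l : Fin n // l ∉ Set.range e} → X) u,
      ψ (y, z) (q u) = Sum.elim y z u := fun y z u => by
    simp [ψ, Equiv.sumArrowEquivProdArrow]
  have he' : ∀ i, q (Sum.inl i) = e i := fun i => by simp [q]
  rw [← ψ.sum_comp, Fintype.sum_prod_type]
  refine Finset.sum_congr rfl fun y _ => ?_
  have hy : ∀ z, (fun i => ψ (y, z) (e i)) = y := fun z => funext fun i => by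
    rw [← he', hq, Sum.elim_inl]
  simp only [hy, fun z => (q.prod_comp fun l => p (ψ (y, z) l)).symm, Fintype.prod_sum_type, hq,
    Sum.elim_inl, Sum.elim_inr]
  rw [← Finset.sum_mul, ← Finset.mul_sum, ← Fintype.prod_sum, hp, Finset.prod_const_one, mul_one]

variable [DecidableEq J] {P : ℕ}

namespace Sys

variable (S : Sys J) (s : ℝ) (y : CIdx J P → ℝ)

/-- The perturbed Gibbs weight of a configuration. -/
noncomputable def gibbsWt (z : S.Ω × EuclideanSpace ℝ (GIdx J P S.D)) (x : S.X) : ℝ :=
  Real.exp (S.logw z.1 x + S.ham s y z.1 z.2 x) /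
    ∑ x', Real.exp (S.logw z.1 x' + S.ham s y z.1 z.2 x')

lemma gibbsWt_nonneg (z : S.Ω × EuclideanSpace ℝ (GIdx J P S.D)) (x : S.X) :
    0 ≤ S.gibbsWt s y z x := by
  unfold gibbsWt
  positivity

lemma sum_gibbsWt (z : S.Ω × EuclideanSpace ℝ (GIdx J P S.D)) : ∑ x, S.gibbsWt s y z x = 1 := by
  simp only [gibbsWt, ← Finset.sum_div]
  exact div_self (Finset.sum_pos (fun x _ => Real.exp_pos _) Finset.univ_nonempty).ne'

lemma sum_prod_gibbsWt (z : S.Ω × EuclideanSpace ℝ (GIdx J P S.D)) (n : ℕ) :
    ∑ x : Fin n → S.X, ∏ l, S.gibbsWt s y z (x l) = 1 := by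
  rw [← Fintype.prod_sum, Finset.prod_eq_one fun _ _ => S.sum_gibbsWt s y z]

lemma prod_gibbsWt_le (z : S.Ω × EuclideanSpace ℝ (GIdx J P S.D)) {n : ℕ} (x : Fin n → S.X) :
    ∏ l, S.gibbsWt s y z (x l) ≤ 1 :=
  S.sum_prod_gibbsWt s y z n ▸ Finset.single_le_sum
    (f := fun x : Fin n → S.X => ∏ l, S.gibbsWt s y z (x l))
    (fun x _ => Finset.prod_nonneg fun l _ => S.gibbsWt_nonneg s y z _) (Finset.mem_univ x)

lemma measurable_feature (x : S.X) (j : J) (i : Fin S.D) : Measurable fun ω => S.v ω x j i :=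
  (by fun_prop : Continuous fun v : EuclideanSpace ℝ (Fin S.D) => v i).measurable.comp (S.measV x j)

lemma measurable_gibbsWt (x : S.X) :
    Measurable fun z : S.Ω × EuclideanSpace ℝ (GIdx J P S.D) => S.gibbsWt s y z x := by
  have h : ∀ x, Measurable fun z : S.Ω × EuclideanSpace ℝ (GIdx J P S.D) =>
      Real.exp (S.logw z.1 x + S.ham s y z.1 z.2 x) := by
    intro x
    refine (((S.measW x).comp measurable_fst).add ?_).exp
    simp only [ham, field]
    refine (Finset.measurable_sum _ fun e _ => measurable_const.mul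
      (Finset.measurable_sum _ fun i _ => Measurable.mul ?_ ?_)).add
      (measurable_const.mul (Finset.measurable_sum _ fun j _ => measurable_const.mul ?_))
    · exact ((by fun_prop : Continuous fun g : EuclideanSpace ℝ (GIdx J P S.D) => g ⟨e, i⟩)
        ).measurable.comp measurable_snd
    · exact Finset.measurable_prod _ fun j _ => Finset.measurable_prod _ fun t _ =>
        (S.measurable_feature x j _).comp measurable_fst
    · exact ((S.measV x j).comp measurable_fst).norm.pow_const 2
  exact (h x).div (Finset.measurable_sum _ fun x' _ => h x')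

lemma avg_eq_sum {n : ℕ} (Θ : S.Ω → (Fin n → S.X) → ℝ) :
    S.avg s y n Θ = ∫ z, ∑ x : Fin n → S.X, (∏ l, S.gibbsWt s y z (x l)) * Θ z.1 x
      ∂S.law.prod (stdGaussian (EuclideanSpace ℝ (GIdx J P S.D))) := by
  refine integral_congr_ae (Eventually.of_forall fun z => ?_)
  simp only [gibbsWt, Finset.prod_div_distrib, Finset.prod_const, Finset.card_univ, Fintype.card_fin,
    Finset.sum_div, div_mul_eq_mul_div]

/-- Averages of functions of some of the replicas. -/
lemma expect_marg {k n : ℕ} (e : Fin k → Fin n) (he : Function.Injective e) (Φ : OArr J k → ℝ) :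
    S.expect s y (fun R : OArr J n => Φ (osub R e)) = S.expect s y Φ := by
  simp only [expect, avg_eq_sum]
  exact integral_congr_ae (Eventually.of_forall fun z =>
    sum_prod_comp (S.gibbsWt s y z) (S.sum_gibbsWt s y z) e he fun x => Φ (S.gram z.1 x))

lemma gram_mem (ω : S.Ω) {n : ℕ} (x : Fin n → S.X) : S.gram ω x ∈ oset J n := by
  refine ⟨fun a b j => (abs_real_inner_le_norm _ _).trans
    (mul_le_one₀ (S.norm _ _ _) (norm_nonneg _) (S.norm _ _ _)),
    fun a b => funext fun j => real_inner_comm _ _, fun j c => ?_⟩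
  have h : ∑ a, ∑ b, c a * c b * S.gram ω x a b j =
      ⟪∑ a, c a • S.v ω (x a) j, ∑ b, c b • S.v ω (x b) j⟫ := by
    simp only [sum_inner, inner_sum, real_inner_smul_left, real_inner_smul_right, gram]
    refine Finset.sum_congr rfl fun a _ => Finset.sum_congr rfl fun b _ => ?_
    rw [real_inner_comm (S.v ω (x a) j) (S.v ω (x b) j)]
    ring
  rw [h]
  exact real_inner_self_nonneg

lemma measurable_gram {n : ℕ} (x : Fin n → S.X) : Measurable fun ω => S.gram ω x := by
  refine measurable_pi_iff.2 fun a => measurable_pi_iff.2 fun b => measurable_pi_iff.2 fun j => ?_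
  exact (S.measV (x a) j).inner (S.measV (x b) j)

lemma measurable_gramPt {n : ℕ} (x : Fin n → S.X) :
    Measurable fun z : S.Ω × EuclideanSpace ℝ (GIdx J P S.D) =>
      (⟨S.gram z.1 x, S.gram_mem z.1 x⟩ : oset J n) :=
  ((S.measurable_gram x).comp measurable_fst).subtype_mk

/-- The part of the law of the overlaps coming from the configurations `x`. -/
noncomputable def ovPart {n : ℕ} (x : Fin n → S.X) : Measure (oset J n) :=
  ((S.law.prod (stdGaussian (EuclideanSpace ℝ (GIdx J P S.D)))).withDensity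
    fun z => ((∏ l, S.gibbsWt s y z (x l)).toNNReal : ENNReal)).map
      fun z => ⟨S.gram z.1 x, S.gram_mem z.1 x⟩

lemma ovPart_univ {n : ℕ} (x : Fin n → S.X) :
    S.ovPart s y x Set.univ = ∫⁻ z, ENNReal.ofReal (∏ l, S.gibbsWt s y z (x l))
      ∂S.law.prod (stdGaussian (EuclideanSpace ℝ (GIdx J P S.D))) := by
  rw [ovPart, Measure.map_apply (S.measurable_gramPt x) MeasurableSet.univ, Set.preimage_univ,
    withDensity_apply _ MeasurableSet.univ, Measure.restrict_univ]
  rfl

lemma isFiniteMeasure_ovPart {n : ℕ} (x : Fin n → S.X) : IsFiniteMeasure (S.ovPart s y x) := by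
  refine ⟨?_⟩
  rw [ovPart_univ]
  refine lt_of_le_of_lt (lintegral_mono (g := fun _ => 1) fun z => ?_) (by simp)
  exact (ENNReal.ofReal_le_ofReal (S.prod_gibbsWt_le s y z x)).trans_eq ENNReal.ofReal_one

/-- The law of the overlaps of `n` replicas. -/
noncomputable def ovLaw (n : ℕ) : ProbabilityMeasure (oset J n) :=
  ⟨∑ x : Fin n → S.X, S.ovPart s y x, ⟨by
    have hm : ∀ x : Fin n → S.X, Measurable fun z : S.Ω × EuclideanSpace ℝ (GIdx J P S.D) =>
        ENNReal.ofReal (∏ l, S.gibbsWt s y z (x l)) := fun x =>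
      (Finset.measurable_prod _ fun l _ => S.measurable_gibbsWt s y (x l)).ennreal_ofReal
    simp only [Measure.coe_finsetSum, Finset.sum_apply, ovPart_univ]
    rw [← lintegral_finsetSum _ fun x _ => hm x]
    simp only [← ENNReal.ofReal_sum_of_nonneg fun x _ =>
      Finset.prod_nonneg fun l _ => S.gibbsWt_nonneg s y _ _, sum_prod_gibbsWt]
    simp⟩⟩

lemma expect_eq_integral {n : ℕ} {F : OArr J n → ℝ} (hF : Continuous F) :
    S.expect s y F = ∫ R : oset J n, F R ∂(S.ovLaw s y n : Measure (oset J n)) := by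
  obtain ⟨D, hD⟩ := (isCompact_oset n).exists_bound_of_continuousOn hF.continuousOn
  have hFm : Continuous fun R : oset J n => F R := hF.comp continuous_subtype_val
  have hfin := S.isFiniteMeasure_ovPart s y (n := n)
  change _ = ∫ R, F R ∂(∑ x : Fin n → S.X, S.ovPart s y x)
  rw [integral_finsetSum_measure fun x _ => Integrable.of_bound hFm.aestronglyMeasurable D
    (Eventually.of_forall fun R => hD R R.2)]
  have hg : ∀ x : Fin n → S.X,
      Measurable fun z : S.Ω × EuclideanSpace ℝ (GIdx J P S.D) => F (S.gram z.1 x) := fun x =>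
    hF.measurable.comp ((S.measurable_gram x).comp measurable_fst)
  have hp : ∀ x : Fin n → S.X, Measurable fun z : S.Ω × EuclideanSpace ℝ (GIdx J P S.D) =>
      ∏ l, S.gibbsWt s y z (x l) := fun x =>
    Finset.measurable_prod _ fun l _ => S.measurable_gibbsWt s y (x l)
  simp only [expect, avg_eq_sum]
  refine (integral_finsetSum (f := fun (x : Fin n → S.X) z =>
      (∏ l, S.gibbsWt s y z (x l)) * F (S.gram z.1 x)) _ fun x _ => Integrable.of_bound
    ((hp x).mul (hg x)).aestronglyMeasurable D (Eventually.of_forall fun z => by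
      rw [norm_mul, Real.norm_of_nonneg (Finset.prod_nonneg fun l _ => S.gibbsWt_nonneg s y z _)]
      exact (mul_le_of_le_one_left (norm_nonneg _) (S.prod_gibbsWt_le s y z x)).trans
        (hD _ (S.gram_mem _ x)))).trans ?_
  refine Finset.sum_congr rfl fun x _ => ?_
  rw [ovPart, integral_map (S.measurable_gramPt x).aemeasurable hFm.aestronglyMeasurable,
    integral_withDensity_eq_integral_smul (hp x).real_toNNReal]
  refine integral_congr_ae (Eventually.of_forall fun z => ?_)
  simp only [NNReal.smul_def, smul_eq_mul,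
    Real.coe_toNNReal _ (Finset.prod_nonneg fun l _ => S.gibbsWt_nonneg s y z _)]

end Sys

/-- A subsequence along which the overlaps of every number of replicas converge in law. -/
lemma exists_olimit {P : ℕ → ℕ} (S : ℕ → Sys J) (s : ℕ → ℝ) (y : ∀ i, CIdx J (P i) → ℝ) :
    ∃ φ : ℕ → ℕ, StrictMono φ ∧ ∃ μ : ∀ n, ProbabilityMeasure (oset J n),
      ∀ n (F : OArr J n → ℝ), Continuous F →
        Tendsto (fun i => (S (φ i)).expect (s (φ i)) (y (φ i)) F) atTop
          (𝓝 (∫ R, F R ∂arrLaw (μ n))) := by
  obtain ⟨μ, -, φ, hφ, hlim⟩ := (isCompact_univ (X := ∀ n, ProbabilityMeasure (oset J n))).tendsto_subseq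
    (x := fun i n => (S i).ovLaw (s i) (y i) n) fun _ => Set.mem_univ _
  refine ⟨φ, hφ, μ, fun n F hF => ?_⟩
  have h := (ProbabilityMeasure.tendsto_iff_forall_integral_tendsto.1
    (tendsto_pi_nhds.1 hlim n))
    (BoundedContinuousFunction.mkOfCompact ⟨fun R => F R, hF.comp continuous_subtype_val⟩)
  simp only [BoundedContinuousFunction.mkOfCompact_apply, ContinuousMap.coe_mk] at h
  simpa only [Sys.expect_eq_integral _ _ _ hF, integral_arrLaw _ hF, Function.comp_apply] using h

end Vale.Agent.P166F
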