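import Vale.Agent.P166F.Structure.Compact

/-!
P166: identities for monomials of several overlaps extend to bounded measurable functions.
-/

namespace Vale.Agent.P166F

open MeasureTheory Filter
open scoped Topology BoundedContinuousFunction

set_option linter.unusedSectionVars false

variable {J : Type} [Fintype J]

lemma monom_zero (x : J → ℝ) : monom (0 : J → ℕ) x = 1 := by
  simp [monom]

lemma monom_add (e e' : J → ℕ) (x : J → ℝ) : monom (e + e') x = monom e x * monom e' x := by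
  simp [monom, pow_add, Finset.prod_mul_distrib]

/-- The polynomial functions of finitely many variables. -/
noncomputable def polyAlg (J : Type) [Fintype J] : Subalgebra ℝ C(J → ℝ, ℝ) :=
  Algebra.adjoin ℝ (Set.range fun j => (⟨fun x => x j, continuous_apply j⟩ : C(J → ℝ, ℝ)))

lemma separatesPoints_polyAlg : (polyAlg J).SeparatesPoints := by
  intro x y hxy
  obtain ⟨j, hj⟩ := Function.ne_iff.1 hxy
  exact ⟨fun x : J → ℝ => x j, ⟨_, Algebra.subset_adjoin ⟨j, rfl⟩, rfl⟩, hj⟩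

/-- A linear functional vanishing on monomials vanishes on polynomial functions. -/
lemma eval_polyAlg (T : (( J → ℝ) → ℝ) → ℝ) (h0 : ∀ e : J → ℕ, T (monom e) = 0)
    (hadd : ∀ f g : (J → ℝ) → ℝ, Continuous f → Continuous g →
      T (fun x => f x + g x) = T f + T g)
    (hsmul : ∀ (a : ℝ) (f : (J → ℝ) → ℝ), T (fun x => a * f x) = a * T f)
    {g : C(J → ℝ, ℝ)} (hg : g ∈ polyAlg J) : T g = 0 := by
  classical
  rw [polyAlg, ← Subalgebra.mem_toSubmodule, Algebra.adjoin_eq_span] at hg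
  induction hg using Submodule.span_induction with
  | mem f hf =>
    suffices ∃ e, ⇑f = monom e by
      obtain ⟨e, he⟩ := this
      rw [he, h0]
    induction hf using Submonoid.closure_induction with
    | mem f hf =>
      obtain ⟨j, rfl⟩ := hf
      refine ⟨fun i => if i = j then 1 else 0, funext fun x => ?_⟩
      simp [monom]
    | one => exact ⟨0, funext fun x => by simp [monom_zero]⟩
    | mul f g _ _ hf hg =>
      obtain ⟨e, he⟩ := hf
      obtain ⟨e', he'⟩ := hg
      exact ⟨e + e', funext fun x => by simp [he, he', monom_add]⟩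
  | zero => simpa [← Pi.zero_def] using hsmul 0 (fun _ => 0)
  | add f g _ _ hf hg =>
    rw [ContinuousMap.coe_add, show ⇑f + ⇑g = fun x => f x + g x from rfl,
      hadd _ _ f.continuous g.continuous, hf, hg, add_zero]
  | smul a f _ hf =>
    rw [ContinuousMap.coe_smul, show a • ⇑f = fun x => a * f x from rfl, hsmul, hf, mul_zero]

variable {μ : ∀ n, ProbabilityMeasure (oset J n)}

/-- The identities for monomials extend to continuous test functions. -/
lemma ogg_continuous {n : ℕ} (l : Fin n) {Φ : OArr J n → ℝ} (hΦ : Continuous Φ) {C : ℝ}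
    (hC : ∀ R, |Φ R| ≤ C)
    (h : ∀ e : J → ℕ, (n : ℝ) * ∫ R, Φ (osub R Fin.castSucc) * monom e (R l.castSucc (Fin.last n))
        ∂arrLaw (μ (n + 1)) =
      (∫ R, Φ R ∂arrLaw (μ n)) * (∫ R, monom e (R 0 1) ∂arrLaw (μ 2)) +
        ∑ l' ∈ Finset.univ.erase l, ∫ R, Φ R * monom e (R l l') ∂arrLaw (μ n))
    {ψ : (J → ℝ) → ℝ} (hψ : Continuous ψ) :
    (n : ℝ) * ∫ R, Φ (osub R Fin.castSucc) * ψ (R l.castSucc (Fin.last n)) ∂arrLaw (μ (n + 1)) =
      (∫ R, Φ R ∂arrLaw (μ n)) * (∫ R, ψ (R 0 1) ∂arrLaw (μ 2)) +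
        ∑ l' ∈ Finset.univ.erase l, ∫ R, Φ R * ψ (R l l') ∂arrLaw (μ n) := by
  have hs : Continuous fun R : OArr J (n + 1) => osub R Fin.castSucc := continuous_osub _
  set T : ((J → ℝ) → ℝ) → ℝ := fun χ =>
    (n : ℝ) * ∫ R, Φ (osub R Fin.castSucc) * χ (R l.castSucc (Fin.last n)) ∂arrLaw (μ (n + 1)) -
      ((∫ R, Φ R ∂arrLaw (μ n)) * (∫ R, χ (R 0 1) ∂arrLaw (μ 2)) +
        ∑ l' ∈ Finset.univ.erase l, ∫ R, Φ R * χ (R l l') ∂arrLaw (μ n)) with hT
  have hadd : ∀ χ χ' : (J → ℝ) → ℝ, Continuous χ → Continuous χ' →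
      T (fun x => χ x + χ' x) = T χ + T χ' := fun χ χ' hχ hχ' => by
    simp only [hT]
    simp only [mul_add]
    rw [integral_add (integrable_arrLaw _ (by fun_prop)) (integrable_arrLaw _ (by fun_prop)),
      integral_add (integrable_arrLaw _ (by fun_prop)) (integrable_arrLaw _ (by fun_prop))]
    simp only [fun l' : Fin n => integral_add (μ := arrLaw (μ n))
      (f := fun R : OArr J n => Φ R * χ (R l l')) (g := fun R : OArr J n => Φ R * χ' (R l l'))
      (integrable_arrLaw _ (by fun_prop)) (integrable_arrLaw _ (by fun_prop)), Finset.sum_add_distrib]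
    ring
  have hsmul : ∀ (a : ℝ) (χ : (J → ℝ) → ℝ), T (fun x => a * χ x) = a * T χ := fun a χ => by
    simp only [hT, mul_left_comm _ a, integral_const_mul, ← Finset.mul_sum]
    ring
  have hmon : ∀ e : J → ℕ, T (monom e) = 0 := fun e => by simp only [hT, h e, sub_self]
  have hC0 : 0 ≤ C := (abs_nonneg _).trans (hC fun _ _ _ => 0)
  have hcube : ∀ (m : ℕ) (R : OArr J m), R ∈ oset J m → ∀ a b,
      R a b ∈ Set.univ.pi fun _ : J => Set.Icc (-1 : ℝ) 1 := fun m R hR a b j _ => abs_le.1 (hR.1 a b j)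
  have hbd : ∀ (δ : ℝ) (χ : (J → ℝ) → ℝ), 0 ≤ δ →
      (∀ x ∈ Set.univ.pi fun _ : J => Set.Icc (-1 : ℝ) 1, |χ x| ≤ δ) →
      |T χ| ≤ C * δ * (2 * n + 1) := fun δ χ hδ0 hδ => by
    have b1 : |∫ R, Φ (osub R Fin.castSucc) * χ (R l.castSucc (Fin.last n)) ∂arrLaw (μ (n + 1))| ≤
        C * δ := by
      have := norm_integral_le_of_norm_le_const (μ := arrLaw (μ (n + 1))) (C := C * δ)
        (f := fun R => Φ (osub R Fin.castSucc) * χ (R l.castSucc (Fin.last n)))
        ((ae_arrLaw _).mono fun R hR => by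
          rw [Real.norm_eq_abs, abs_mul]
          exact mul_le_mul (hC _) (hδ _ (hcube _ _ hR _ _)) (abs_nonneg _) hC0)
      simpa [Real.norm_eq_abs] using this
    have b2 : |∫ R, Φ R ∂arrLaw (μ n)| ≤ C := by
      have := norm_integral_le_of_norm_le_const (μ := arrLaw (μ n)) (C := C) (f := Φ)
        (Eventually.of_forall fun R => (Real.norm_eq_abs _).trans_le (hC R))
      simpa [Real.norm_eq_abs] using this
    have b3 : |∫ R, χ (R 0 1) ∂arrLaw (μ 2)| ≤ δ := by
      have := norm_integral_le_of_norm_le_const (μ := arrLaw (μ 2)) (C := δ)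
        (f := fun R : OArr J 2 => χ (R 0 1))
        ((ae_arrLaw _).mono fun R hR => by
          rw [Real.norm_eq_abs]; exact hδ _ (hcube _ _ hR _ _))
      simpa [Real.norm_eq_abs] using this
    have b4 : ∀ l', |∫ R, Φ R * χ (R l l') ∂arrLaw (μ n)| ≤ C * δ := fun l' => by
      have := norm_integral_le_of_norm_le_const (μ := arrLaw (μ n)) (C := C * δ)
        (f := fun R : OArr J n => Φ R * χ (R l l'))
        ((ae_arrLaw _).mono fun R hR => by
          rw [Real.norm_eq_abs, abs_mul]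
          exact mul_le_mul (hC R) (hδ _ (hcube _ _ hR _ _)) (abs_nonneg _) hC0)
      simpa [Real.norm_eq_abs] using this
    have b5 : |∑ l' ∈ Finset.univ.erase l, ∫ R, Φ R * χ (R l l') ∂arrLaw (μ n)| ≤ n * (C * δ) := by
      refine (Finset.abs_sum_le_sum_abs _ _).trans
        ((Finset.sum_le_card_nsmul _ _ _ fun l' _ => b4 l').trans ?_)
      rw [nsmul_eq_mul]
      refine mul_le_mul_of_nonneg_right ?_ (mul_nonneg hC0 hδ0)
      exact_mod_cast (Finset.card_le_univ _).trans_eq (Fintype.card_fin n)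
    have b23 := mul_le_mul b2 b3 (abs_nonneg _) hC0
    rw [← abs_mul] at b23
    have b1' := mul_le_mul_of_nonneg_left b1 (Nat.cast_nonneg' n : (0 : ℝ) ≤ n)
    rw [← Nat.abs_cast, ← abs_mul, Nat.abs_cast] at b1'
    simp only [hT]
    refine (abs_sub _ _).trans ?_
    refine (add_le_add b1' ((abs_add_le _ _).trans (add_le_add b23 b5))).trans (le_of_eq ?_)
    ring
  have : T ψ = 0 := by
    refine abs_nonpos_iff.1 (le_of_forall_pos_le_add fun ε hε => ?_)
    have hK : 0 < C * (2 * n + 1) + 1 := by positivity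
    obtain ⟨q, hqA, hq⟩ :=
      ContinuousMap.exists_mem_subalgebra_near_continuous_of_isCompact_of_separatesPoints
      separatesPoints_polyAlg ⟨ψ, hψ⟩ (isCompact_univ_pi fun _ : J => isCompact_Icc)
      (div_pos hε hK)
    have hd : T ψ = T (fun x => q x) + T (fun x => ψ x - q x) := by
      rw [← hadd (fun x => q x) (fun x => ψ x - q x) q.continuous (hψ.sub q.continuous)]
      simp
    rw [hd, eval_polyAlg T hmon hadd hsmul hqA, zero_add, zero_add]
    refine (hbd (ε / (C * (2 * n + 1) + 1)) (fun x => ψ x - q x) (div_nonneg hε.le hK.le)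
      fun x hx => ?_).trans ?_
    · rw [abs_sub_comm, ← Real.norm_eq_abs]
      exact (hq x hx).le
    · rw [show C * (ε / (C * (2 * n + 1) + 1)) * (2 * n + 1) =
        C * (2 * n + 1) * ε / (C * (2 * n + 1) + 1) by ring, div_le_iff₀ hK]
      nlinarith
  simpa only [hT, sub_eq_zero] using this

/-- The identities for bounded measurable test functions follow from those for continuous ones. -/
lemma ogg_measurable {n : ℕ} (l : Fin n)
    (h : ∀ (Φ : OArr J n → ℝ) (ψ : (J → ℝ) → ℝ), Continuous Φ → (∃ C, ∀ R, |Φ R| ≤ C) → Continuous ψ →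
      (n : ℝ) * ∫ R, Φ (osub R Fin.castSucc) * ψ (R l.castSucc (Fin.last n)) ∂arrLaw (μ (n + 1)) =
      (∫ R, Φ R ∂arrLaw (μ n)) * (∫ R, ψ (R 0 1) ∂arrLaw (μ 2)) +
        ∑ l' ∈ Finset.univ.erase l, ∫ R, Φ R * ψ (R l l') ∂arrLaw (μ n))
    {Φ : OArr J n → ℝ} {ψ : (J → ℝ) → ℝ} (hΦ : Measurable Φ) (hψ : Measurable ψ)
    (hΦb : ∃ C, ∀ R, |Φ R| ≤ C) (hψb : ∃ C, ∀ x, |ψ x| ≤ C) :
    (n : ℝ) * ∫ R, Φ (osub R Fin.castSucc) * ψ (R l.castSucc (Fin.last n)) ∂arrLaw (μ (n + 1)) =
      (∫ R, Φ R ∂arrLaw (μ n)) * (∫ R, ψ (R 0 1) ∂arrLaw (μ 2)) +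
        ∑ l' ∈ Finset.univ.erase l, ∫ R, Φ R * ψ (R l l') ∂arrLaw (μ n) := by
  set g : OArr J (n + 1) → OArr J n × (J → ℝ) :=
    fun R => (osub R Fin.castSucc, R l.castSucc (Fin.last n))
  set g2 : OArr J 2 → J → ℝ := fun R => R 0 1
  set g3 : Fin n → OArr J n → OArr J n × (J → ℝ) := fun l' R => (R, R l l')
  have hg : Measurable g := (Continuous.prodMk (continuous_osub _) (by fun_prop)).measurable
  have hg2 : Measurable g2 := by simp only [g2]; fun_prop
  have hg3 : ∀ l', Measurable (g3 l') := fun l' => by simp only [g3]; fun_prop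
  have := Measure.isProbabilityMeasure_map (μ := arrLaw (μ (n + 1))) hg.aemeasurable
  have := Measure.isProbabilityMeasure_map (μ := arrLaw (μ 2)) hg2.aemeasurable
  have : ∀ l', IsProbabilityMeasure ((arrLaw (μ n)).map (g3 l')) := fun l' =>
    Measure.isProbabilityMeasure_map (hg3 l').aemeasurable
  set ν₁ := (n : NNReal) • (arrLaw (μ (n + 1))).map g
  set ν₂ := (arrLaw (μ n)).prod ((arrLaw (μ 2)).map g2) +
    ∑ l' ∈ Finset.univ.erase l, (arrLaw (μ n)).map (g3 l')
  have hsum : IsFiniteMeasure (∑ l' ∈ Finset.univ.erase l, (arrLaw (μ n)).map (g3 l')) :=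
    ⟨by simp only [Measure.coe_finsetSum, Finset.sum_apply, measure_univ]
        simp [ENNReal.natCast_ne_top, lt_top_iff_ne_top]⟩
  have key : ∀ (Φ' : OArr J n → ℝ) (ψ' : (J → ℝ) → ℝ), Measurable Φ' → Measurable ψ' →
      ∀ C C' : ℝ, (∀ R, |Φ' R| ≤ C) → (∀ x, |ψ' x| ≤ C') →
      (∫ z, Φ' z.1 * ψ' z.2 ∂ν₁ =
          (n : ℝ) * ∫ R, Φ' (osub R Fin.castSucc) * ψ' (R l.castSucc (Fin.last n))
            ∂arrLaw (μ (n + 1))) ∧
      ∫ z, Φ' z.1 * ψ' z.2 ∂ν₂ = (∫ R, Φ' R ∂arrLaw (μ n)) * (∫ R, ψ' (R 0 1) ∂arrLaw (μ 2)) +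
        ∑ l' ∈ Finset.univ.erase l, ∫ R, Φ' R * ψ' (R l l') ∂arrLaw (μ n) := by
    intro Φ' ψ' hΦ' hψ' C C' hC hC'
    have hm : Measurable fun z : OArr J n × (J → ℝ) => Φ' z.1 * ψ' z.2 :=
      (hΦ'.comp measurable_fst).mul (hψ'.comp measurable_snd)
    have hb : ∀ z : OArr J n × (J → ℝ), ‖Φ' z.1 * ψ' z.2‖ ≤ |C| * |C'| := fun z => by
      rw [Real.norm_eq_abs, abs_mul]
      exact mul_le_mul ((hC _).trans (le_abs_self _)) ((hC' _).trans (le_abs_self _)) (abs_nonneg _)
        (abs_nonneg _)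
    have hint : ∀ (ν : Measure (OArr J n × (J → ℝ))) [IsFiniteMeasure ν],
        Integrable (fun z => Φ' z.1 * ψ' z.2) ν := fun ν _ =>
      Integrable.of_bound hm.aestronglyMeasurable _ (Eventually.of_forall hb)
    constructor
    · rw [integral_smul_nnreal_measure, NNReal.smul_def, smul_eq_mul, NNReal.coe_natCast,
        integral_map hg.aemeasurable hm.aestronglyMeasurable]
    · rw [integral_add_measure (hint _) (hint _),
        integral_prod_mul Φ' ψ', integral_map hg2.aemeasurable hψ'.aestronglyMeasurable,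
        integral_finsetSum_measure fun l' _ => hint _]
      congr 1
      refine Finset.sum_congr rfl fun l' _ => ?_
      rw [integral_map (hg3 l').aemeasurable hm.aestronglyMeasurable]
  have heq : ν₁ = ν₂ := by
    refine Measure.ext_of_integral_mul_boundedContinuousFunction fun f g => ?_
    obtain ⟨e1, e2⟩ := key f g f.continuous.measurable g.continuous.measurable ‖f‖ ‖g‖
      (fun R => f.norm_coe_le_norm R) (fun x => g.norm_coe_le_norm x)
    rw [e1, e2]
    exact h f g f.continuous ⟨‖f‖, fun R => f.norm_coe_le_norm R⟩ g.continuous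
  obtain ⟨C, hC⟩ := hΦb
  obtain ⟨C', hC'⟩ := hψb
  obtain ⟨e1, e2⟩ := key Φ ψ hΦ hψ C C' hC hC'
  rw [← e1, ← e2, heq]

end Vale.Agent.P166F
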